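import Vale.Agent.P344.H227.Elim2
import Vale.Agent.P344.H120.GFinal

/-!
# Additions of a linear circuit
-/

set_option linter.unusedSectionVars false

namespace Vale.Agent.P344.H227

open Finset

variable {ι κ : Type} [Fintype ι] [DecidableEq ι] [Fintype κ] [DecidableEq κ]

/-- The rank of a cell. -/
def cellRk (C : Circuit ι κ) : Option ι ⊕ C.G → ℕ
  | .inl _ => 0
  | .inr g => C.depth g

/-- The weight with which a cell reads another one. -/
def cellW (C : Circuit ι κ) : Option ι ⊕ C.G → Option ι ⊕ C.G → ℂ
  | .inl _, _ => 0
  | .inr g, c => (C.gate g).coef c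

theorem coef_ne_zero {α : Type} [DecidableEq α] {g : Gate α} {k : α} (h : g.coef k ≠ 0) :
    k ∈ g.args := by
  cases g with
  | add p q =>
    simp only [Gate.coef] at h
    simp only [Gate.args, List.mem_cons, List.not_mem_nil, or_false]
    by_contra hcon
    push Not at hcon
    rw [if_neg (Ne.symm hcon.1), if_neg (Ne.symm hcon.2)] at h
    simp at h
  | sub p q =>
    simp only [Gate.coef] at h
    simp only [Gate.args, List.mem_cons, List.not_mem_nil, or_false]
    by_contra hcon
    push Not at hcon
    rw [if_neg (Ne.symm hcon.1), if_neg (Ne.symm hcon.2)] at h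
    simp at h
  | smul c p =>
    simp only [Gate.coef] at h
    simp only [Gate.args, List.mem_cons, List.not_mem_nil, or_false]
    by_contra hcon
    rw [if_neg (Ne.symm hcon)] at h
    exact h rfl

theorem eval_eq_sum {α : Type} [Fintype α] [DecidableEq α] (x : α → ι → ℂ) (g : Gate α) (i : ι) :
    g.eval x i = ∑ k, g.coef k * x k i := by
  cases g with
  | add p q =>
    simp [Gate.eval, Gate.coef, add_mul, Finset.sum_add_distrib]
  | sub p q =>
    simp [Gate.eval, Gate.coef, sub_mul, Finset.sum_sub_distrib]
  | smul c p =>
    simp [Gate.eval, Gate.coef]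

/-- The network of a circuit. -/
def toNet (C : Circuit ι κ) (f : C.G → ι → ℂ) : Net (Option ι ⊕ C.G) ι κ where
  rk := cellRk C
  V := Finset.univ
  W := cellW C
  I := Finset.univ
  J := Finset.univ
  inp i := Sum.inl (some i)
  out := C.out
  f := C.cell f

theorem toNet_ok (C : Circuit ι κ) {f : C.G → ι → ℂ} (hf : C.IsForms f) : (toNet C f).OK where
  acyc v u hW := by
    change cellW C v u ≠ 0 at hW
    change cellRk C u < cellRk C v
    match v, u with
    | .inl _, _ => exact absurd rfl hW
    | .inr g, .inl _ => exact C.depth_pos g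
    | .inr g, .inr g' => exact C.depth_lt g g' (coef_ne_zero hW)
  inp_mem _ _ := Finset.mem_univ _
  inj i _ i' _ e := by
    change (Sum.inl (some i) : Option ι ⊕ C.G) = Sum.inl (some i') at e
    simpa using e
  out_mem _ _ := Finset.mem_univ _
  hf v _ i _ := by
    change C.cell f v i = (if (Sum.inl (some i) : Option ι ⊕ C.G) = v then 1 else 0) +
      ∑ u, cellW C v u * C.cell f u i
    match v with
    | .inl none => simp [Circuit.cell, cellW]
    | .inl (some i') =>
      simp only [Circuit.cell, cellW, zero_mul, Finset.sum_const_zero, add_zero, Sum.inl.injEq,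
        Option.some.injEq, Pi.single_apply]
    | .inr g =>
      have : (Sum.inl (some i) : Option ι ⊕ C.G) ≠ Sum.inr g := by simp
      rw [if_neg this, zero_add]
      change f g i = _
      rw [hf g, eval_eq_sum]
      rfl

/-- The number of additions of the network is at most the number of additions of the circuit. -/
theorem toNet_cost_le (C : Circuit ι κ) (f : C.G → ι → ℂ) :
    (toNet C f).cost ≤ C.adds.card := by
  classical
  have hin : ∀ g : C.G, (Sum.inr g : Option ι ⊕ C.G) ∉
      (toNet C f).I.image (toNet C f).inp := by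
    intro g hg
    obtain ⟨i, _, e⟩ := Finset.mem_image.1 hg
    change (Sum.inl (some i) : Option ι ⊕ C.G) = Sum.inr g at e
    simp at e
  have hreads : ∀ v, ((toNet C f).reads v).card ≤
      match v with
      | .inl _ => 0
      | .inr g => (C.gate g).args.toFinset.card := by
    intro v
    match v with
    | .inl o =>
      rw [Nat.le_zero, Finset.card_eq_zero, Finset.eq_empty_iff_forall_notMem]
      intro u hu
      exact (Net.mem_reads.1 hu).2 rfl
    | .inr g =>
      refine Finset.card_le_card fun u hu => ?_
      exact List.mem_toFinset.2 (coef_ne_zero (Net.mem_reads.1 hu).2)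
  have hcost : ∀ v, (toNet C f).costAt v ≤
      match v with
      | .inl _ => 0
      | .inr g => if (C.gate g).IsAdd then 1 else 0 := by
    intro v
    have h1 := hreads v
    match v with
    | .inl o =>
      have : (toNet C f).isIn (Sum.inl o) ≤ 1 := by
        unfold Net.isIn
        split_ifs <;> simp
      dsimp only at h1 ⊢
      unfold Net.costAt
      omega
    | .inr g =>
      dsimp only at h1 ⊢
      unfold Net.costAt
      rw [Net.isIn_zero (hin g)]
      cases hg : C.gate g with
      | add p q =>
        rw [hg] at h1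
        have : ([p, q] : List (Option ι ⊕ C.G)).toFinset.card ≤ 2 := List.toFinset_card_le _
        rw [if_pos (show (Gate.add p q).IsAdd from trivial)]
        simp only [Gate.args] at h1
        omega
      | sub p q =>
        rw [hg] at h1
        have : ([p, q] : List (Option ι ⊕ C.G)).toFinset.card ≤ 2 := List.toFinset_card_le _
        rw [if_pos (show (Gate.sub p q).IsAdd from trivial)]
        simp only [Gate.args] at h1
        omega
      | smul c p =>
        rw [hg] at h1
        have : ([p] : List (Option ι ⊕ C.G)).toFinset.card ≤ 1 := List.toFinset_card_le _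
        rw [if_neg (show ¬ (Gate.smul c p).IsAdd from not_false)]
        simp only [Gate.args] at h1
        omega
  calc (toNet C f).cost = ∑ v : Option ι ⊕ C.G, (toNet C f).costAt v := rfl
    _ = ∑ o : Option ι, (toNet C f).costAt (Sum.inl o) +
        ∑ g : C.G, (toNet C f).costAt (Sum.inr g) := Fintype.sum_sum_type _
    _ ≤ ∑ _o : Option ι, 0 + ∑ g : C.G, (if (C.gate g).IsAdd then 1 else 0) :=
        Nat.add_le_add (Finset.sum_le_sum fun o _ => hcost (Sum.inl o))
          (Finset.sum_le_sum fun g _ => hcost (Sum.inr g))
    _ = C.adds.card := by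
        rw [Finset.sum_const_zero, zero_add, Circuit.adds, Finset.card_filter]

/-- **Additions, general matrices.** -/
theorem adds_bound (C : Circuit ι κ) {A : Matrix κ ι ℂ} (hC : C.Comp A) [Nonempty ι]
    (hA : ∀ j i, A j i ≠ 0) (hrow : ∀ j j', j ≠ j' → ∃ i i', A j i * A j' i' ≠ A j i' * A j' i)
    (q0 : ℕ) (hq0 : 1 ≤ q0) (hq1 : q0 ≤ Fintype.card κ)
    (hcol : ∀ J' : Finset κ, q0 ≤ J'.card → ∀ i i', i ≠ i' →
      ∃ j ∈ J', ∃ j' ∈ J', A j i * A j' i' ≠ A j i' * A j' i) :
    2 * (Fintype.card ι - 1) + (Fintype.card κ - q0) ≤ C.adds.card := by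
  obtain ⟨f, hf, hout⟩ := hC
  refine le_trans ?_ (toNet_cost_le C f)
  have h := Net.two_mul_add_le_cost q0 hq0 _ (toNet C f) (toNet_ok C hf) rfl
    (fun j _ i _ => by
      change C.cell f (C.out j) i ≠ 0
      rw [hout]
      exact hA j i)
    (fun j _ j' _ hjj => by
      obtain ⟨i, i', hii⟩ := hrow j j' hjj
      refine ⟨i, Finset.mem_univ _, i', Finset.mem_univ _, ?_⟩
      change C.cell f (C.out j) i * C.cell f (C.out j') i' ≠
        C.cell f (C.out j) i' * C.cell f (C.out j') i
      simpa only [hout] using hii)
    Finset.univ_nonempty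
    (fun J' _ hc i _ i' _ hii => by
      obtain ⟨j, hj, j', hj', hjj⟩ := hcol J' hc i i' hii
      refine ⟨j, hj, j', hj', ?_⟩
      change C.cell f (C.out j) i * C.cell f (C.out j') i' ≠
        C.cell f (C.out j) i' * C.cell f (C.out j') i
      simpa only [hout] using hjj)
    hq1
  exact h

end Vale.Agent.P344.H227
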