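import Vale.Agent.P344.H227.Net

/-!
# Elimination of inputs
-/

set_option linter.unusedSectionVars false

namespace Vale.Agent.P344.H227

open Finset

variable {α ι κ : Type} [DecidableEq α] [DecidableEq ι] [DecidableEq κ]

/-- **Merging** a vertex `v1` that reads `v0` only into `v0`. -/
def Net.merge (N : Net α ι κ) (v0 v1 : α) : Net α ι κ :=
  { N with
    V := N.V.erase v1
    W := fun v u => if u = v0 then N.W v v0 + N.W v v1 * N.W v1 v0 else N.W v u }

/-- The value of a vertex without input that reads one vertex only. -/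
theorem Net.OK.f_single {N : Net α ι κ} (h : N.OK) {v0 v1 : α} (hv1 : v1 ∈ N.V)
    (hv0 : v0 ∈ N.V) (hin : v1 ∉ N.I.image N.inp) (hr : ∀ u ∈ N.reads v1, u = v0) {i : ι}
    (hi : i ∈ N.I) : N.f v1 i = N.W v1 v0 * N.f v0 i := by
  rw [h.hf v1 hv1 i hi, if_neg (fun e => hin (Finset.mem_image.2 ⟨i, hi, e⟩)), zero_add]
  rw [Finset.sum_eq_single v0]
  · intro u hu hne
    have : N.W v1 u = 0 := by
      by_contra hW
      exact hne (hr u (Net.mem_reads.2 ⟨hu, hW⟩))
    rw [this, zero_mul]
  · intro hn
    exact absurd hv0 hn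

theorem Net.OK.merge {N : Net α ι κ} (h : N.OK) {v0 v1 : α} (hv1 : v1 ∈ N.V) (hv0 : v0 ∈ N.V)
    (hne : v0 ≠ v1) (hin : v1 ∉ N.I.image N.inp) (hout : ∀ j ∈ N.J, N.out j ≠ v1)
    (hr : ∀ u ∈ N.reads v1, u = v0) : (N.merge v0 v1).OK where
  acyc v u hW := by
    change (if u = v0 then N.W v v0 + N.W v v1 * N.W v1 v0 else N.W v u) ≠ 0 at hW
    change N.rk u < N.rk v
    split_ifs at hW with hu
    · subst hu
      by_cases h1 : N.W v u = 0
      · rw [h1, zero_add] at hW
        have h2 := h.acyc v v1 (left_ne_zero_of_mul hW)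
        have h3 := h.acyc v1 u (right_ne_zero_of_mul hW)
        omega
      · exact h.acyc v u h1
    · exact h.acyc v u hW
  inp_mem i hi := Finset.mem_erase.2
    ⟨fun e => hin (Finset.mem_image.2 ⟨i, hi, e⟩), h.inp_mem i hi⟩
  inj := h.inj
  out_mem j hj := Finset.mem_erase.2 ⟨hout j hj, h.out_mem j hj⟩
  hf v hv i hi := by
    have hv' := Finset.mem_erase.1 hv
    change N.f v i = (if N.inp i = v then 1 else 0) + ∑ u ∈ N.V.erase v1,
      (if u = v0 then N.W v v0 + N.W v v1 * N.W v1 v0 else N.W v u) * N.f u i
    have h0 : v0 ∈ N.V.erase v1 := Finset.mem_erase.2 ⟨hne, hv0⟩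
    rw [h.hf v hv'.2 i hi, ← Finset.add_sum_erase _ _ hv1, ← Finset.add_sum_erase _ _ h0,
      ← Finset.add_sum_erase _ _ h0, if_pos rfl, h.f_single hv1 hv0 hin hr hi]
    have : ∑ u ∈ (N.V.erase v1).erase v0,
        (if u = v0 then N.W v v0 + N.W v v1 * N.W v1 v0 else N.W v u) * N.f u i =
        ∑ u ∈ (N.V.erase v1).erase v0, N.W v u * N.f u i := by
      refine Finset.sum_congr rfl fun u hu => ?_
      rw [if_neg (Finset.mem_erase.1 hu).1]
    rw [this]
    ring

theorem Net.cost_merge_le (N : Net α ι κ) {v0 v1 : α} (hv1 : v1 ∈ N.V) (hv0 : v0 ∈ N.V) :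
    (N.merge v0 v1).cost ≤ N.cost := by
  classical
  have h1 : ∀ v ∈ (N.merge v0 v1).V, (N.merge v0 v1).costAt v ≤ N.costAt v := by
    intro v _
    have : ((N.merge v0 v1).reads v).card ≤ (N.reads v).card := by
      refine Finset.card_le_card_of_injOn
        (fun u => if u = v0 ∧ N.W v v0 = 0 then v1 else u) ?_ ?_
      · intro u hu
        have hu := Net.mem_reads.1 (Finset.mem_coe.1 hu)
        have huV := Finset.mem_erase.1 hu.1
        have hW : (if u = v0 then N.W v v0 + N.W v v1 * N.W v1 v0 else N.W v u) ≠ 0 := hu.2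
        refine Finset.mem_coe.2 (Net.mem_reads.2 ?_)
        by_cases hc : u = v0 ∧ N.W v v0 = 0
        · simp only [hc, and_self, if_true]
          rw [if_pos hc.1, hc.2, zero_add] at hW
          exact ⟨hv1, left_ne_zero_of_mul hW⟩
        · simp only [hc, if_false]
          refine ⟨huV.2, ?_⟩
          by_cases hu0 : u = v0
          · subst hu0
            exact fun e => hc ⟨rfl, e⟩
          · rwa [if_neg hu0] at hW
      · intro u hu u' hu' he
        have hu := Net.mem_reads.1 (Finset.mem_coe.1 hu)
        have hu' := Net.mem_reads.1 (Finset.mem_coe.1 hu')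
        have e1 := (Finset.mem_erase.1 hu.1).1
        have e2 := (Finset.mem_erase.1 hu'.1).1
        dsimp only at he
        split_ifs at he with c1 c2 c2
        · rw [c1.1, c2.1]
        · exact absurd he.symm e2
        · exact absurd he e1
        · exact he
    have e : (N.merge v0 v1).isIn v = N.isIn v := rfl
    unfold Net.costAt
    rw [e]
    omega
  refine (Finset.sum_le_sum h1).trans ?_
  exact Finset.sum_le_sum_of_subset (Finset.erase_subset _ _)

/-- **Moving** the input `i0` from a first vertex `v0` to its only successor `v1`. -/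
noncomputable def Net.move (N : Net α ι κ) (i0 : ι) (v0 v1 : α) : Net α ι κ :=
  { N with
    V := N.V.erase v0
    inp := Function.update N.inp i0 v1
    f := fun v i => if i = i0 then N.f v i / N.W v1 v0 else N.f v i }

theorem Net.OK.move {N : Net α ι κ} (h : N.OK) {i0 : ι} {v0 v1 : α} (hi0 : i0 ∈ N.I)
    (hinp : N.inp i0 = v0) (hmin : ∀ v ∈ N.V, N.rk v0 ≤ N.rk v) (hv1 : v1 ∈ N.V)
    (hin : v1 ∉ N.I.image N.inp) (hout : ∀ j ∈ N.J, N.out j ≠ v0)
    (hW : N.W v1 v0 ≠ 0) (honly : ∀ v ∈ N.V, N.W v v0 ≠ 0 → v = v1) :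
    (N.move i0 v0 v1).OK where
  acyc := h.acyc
  inp_mem i hi := by
    have hlt := h.acyc v1 v0 hW
    change Function.update N.inp i0 v1 i ∈ N.V.erase v0
    by_cases e : i = i0
    · subst e
      rw [Function.update_self]
      exact Finset.mem_erase.2 ⟨by rintro rfl; omega, hv1⟩
    · rw [Function.update_of_ne e]
      refine Finset.mem_erase.2 ⟨fun e' => e (h.inj i hi i0 hi0 (e'.trans hinp.symm)),
        h.inp_mem i hi⟩
  inj i hi i' hi' e := by
    change Function.update N.inp i0 v1 i = Function.update N.inp i0 v1 i' at e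
    by_cases e1 : i = i0 <;> by_cases e2 : i' = i0
    · rw [e1, e2]
    · subst e1
      rw [Function.update_self, Function.update_of_ne e2] at e
      exact absurd (Finset.mem_image.2 ⟨i', hi', e.symm⟩) hin
    · subst e2
      rw [Function.update_self, Function.update_of_ne e1] at e
      exact absurd (Finset.mem_image.2 ⟨i, hi, e⟩) hin
    · rw [Function.update_of_ne e1, Function.update_of_ne e2] at e
      exact h.inj i hi i' hi' e
  out_mem j hj := Finset.mem_erase.2 ⟨hout j hj, h.out_mem j hj⟩
  hf v hv i hi := by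
    have hv' := Finset.mem_erase.1 hv
    have hv0 : v0 ∈ N.V := hinp ▸ h.inp_mem i0 hi0
    change (if i = i0 then N.f v i / N.W v1 v0 else N.f v i) =
      (if Function.update N.inp i0 v1 i = v then 1 else 0) +
      ∑ u ∈ N.V.erase v0, N.W v u * (if i = i0 then N.f u i / N.W v1 v0 else N.f u i)
    have hsum := h.hf v hv'.2 i hi
    rw [← Finset.add_sum_erase _ _ hv0] at hsum
    by_cases e : i = i0
    · subst e
      simp only [if_true, Function.update_self]
      have h00 : N.f v0 i = 1 := by
        rw [h.hf v0 hv0 i hi, if_pos hinp, Finset.sum_eq_zero, add_zero]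
        intro u hu
        have : N.W v0 u = 0 := by
          by_contra hc
          have := h.acyc v0 u hc
          have := hmin u hu
          omega
        rw [this, zero_mul]
      have hne : N.inp i ≠ v := fun e' => hv'.1 (e'.symm.trans hinp)
      rw [h00, mul_one, if_neg hne, zero_add] at hsum
      rw [hsum, add_div, Finset.sum_div]
      congr 1
      · by_cases hvv : v1 = v
        · subst hvv
          rw [if_pos rfl, div_self hW]
        · have : N.W v v0 = 0 := by
            by_contra hc
            exact hvv (honly v hv'.2 hc).symm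
          rw [if_neg hvv, this, zero_div]
      · refine Finset.sum_congr rfl fun u _ => ?_
        rw [mul_div_assoc]
    · simp only [e, if_false, Function.update_of_ne e]
      have h00 : N.f v0 i = 0 :=
        h.f_zero hi v0 hv0 (hmin _ (h.inp_mem i hi))
          (fun e' => e (h.inj i hi i0 hi0 (e'.symm.trans hinp.symm)))
      rw [hsum, h00, mul_zero, zero_add]

theorem Net.cost_move_le (N : Net α ι κ) (h : N.OK) {i0 : ι} {v0 v1 : α} (hi0 : i0 ∈ N.I)
    (hinp : N.inp i0 = v0) (hv1 : v1 ∈ N.V)
    (hin : v1 ∉ N.I.image N.inp) (hW : N.W v1 v0 ≠ 0) :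
    (N.move i0 v0 v1).cost ≤ N.cost := by
  classical
  have hv0 : v0 ∈ N.V := hinp ▸ h.inp_mem i0 hi0
  have h1 : ∀ v ∈ (N.move i0 v0 v1).V, (N.move i0 v0 v1).costAt v ≤ N.costAt v := by
    intro v hv
    have hv' := Finset.mem_erase.1 hv
    have hsub : (N.move i0 v0 v1).reads v ⊆ (N.reads v).erase v0 := by
      intro u hu
      have hu := Net.mem_reads.1 hu
      have hu1 := Finset.mem_erase.1 hu.1
      exact Finset.mem_erase.2 ⟨hu1.1, Net.mem_reads.2 ⟨hu1.2, hu.2⟩⟩
    have hle := Finset.card_le_card hsub
    have hle2 : ((N.reads v).erase v0).card ≤ (N.reads v).card :=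
      Finset.card_le_card (Finset.erase_subset _ _)
    unfold Net.costAt
    by_cases hvv : v = v1
    · subst hvv
      have hmem : v0 ∈ N.reads v := Net.mem_reads.2 ⟨hv0, hW⟩
      have hc := Finset.card_erase_of_mem hmem
      have hpos : 0 < (N.reads v).card := Finset.card_pos.2 ⟨v0, hmem⟩
      have e1 : (N.move i0 v0 v).isIn v ≤ 1 := by
        unfold Net.isIn
        split_ifs <;> simp
      rw [Net.isIn_zero hin]
      omega
    · have e1 : (N.move i0 v0 v1).isIn v ≤ N.isIn v := by
        by_cases hm : v ∈ (N.move i0 v0 v1).I.image (N.move i0 v0 v1).inp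
        · obtain ⟨i, hi, hiv⟩ := Finset.mem_image.1 hm
          change Function.update N.inp i0 v1 i = v at hiv
          have hne : i ≠ i0 := by
            rintro rfl
            rw [Function.update_self] at hiv
            exact hvv hiv.symm
          rw [Function.update_of_ne hne] at hiv
          have : v ∈ N.I.image N.inp := Finset.mem_image.2 ⟨i, hi, hiv⟩
          rw [Net.isIn_pos this, Net.isIn_pos hm]
        · rw [Net.isIn_zero hm]
          exact Nat.zero_le _
      omega
  refine (Finset.sum_le_sum h1).trans ?_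
  exact Finset.sum_le_sum_of_subset (Finset.erase_subset _ _)

/-- **Setting** the input `i0` at a first vertex `v0` to zero. -/
def Net.kill (N : Net α ι κ) (i0 : ι) (v0 : α) : Net α ι κ :=
  { N with V := N.V.erase v0, I := N.I.erase i0 }

theorem Net.OK.kill {N : Net α ι κ} (h : N.OK) {i0 : ι} {v0 : α} (hi0 : i0 ∈ N.I)
    (hinp : N.inp i0 = v0) (hmin : ∀ v ∈ N.V, N.rk v0 ≤ N.rk v)
    (hout : ∀ j ∈ N.J, N.out j ≠ v0) : (N.kill i0 v0).OK where
  acyc := h.acyc
  inp_mem i hi := by
    have hi' := Finset.mem_erase.1 hi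
    exact Finset.mem_erase.2 ⟨fun e => hi'.1 (h.inj i hi'.2 i0 hi0 (e.trans hinp.symm)),
      h.inp_mem i hi'.2⟩
  inj i hi i' hi' := h.inj i (Finset.mem_erase.1 hi).2 i' (Finset.mem_erase.1 hi').2
  out_mem j hj := Finset.mem_erase.2 ⟨hout j hj, h.out_mem j hj⟩
  hf v hv i hi := by
    have hv' := Finset.mem_erase.1 hv
    have hi' := Finset.mem_erase.1 hi
    have hv0 : v0 ∈ N.V := hinp ▸ h.inp_mem i0 hi0
    change N.f v i = _ + ∑ u ∈ N.V.erase v0, N.W v u * N.f u i
    have h00 : N.f v0 i = 0 :=
      h.f_zero hi'.2 v0 hv0 (hmin _ (h.inp_mem i hi'.2))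
        (fun e' => hi'.1 (h.inj i hi'.2 i0 hi0 (e'.symm.trans hinp.symm)))
    rw [h.hf v hv'.2 i hi'.2, ← Finset.add_sum_erase _ _ hv0, h00, mul_zero, zero_add]
    rfl

open Classical in
theorem Net.cost_kill_le (N : Net α ι κ) (h : N.OK) {i0 : ι} {v0 : α} (hi0 : i0 ∈ N.I)
    (hinp : N.inp i0 = v0)
    (hs : ∀ v ∈ N.V, N.W v v0 ≠ 0 → 2 ≤ (N.reads v).card + N.isIn v) :
    (N.kill i0 v0).cost + (N.V.filter fun v => N.W v v0 ≠ 0).card ≤ N.cost := by
  have hv0 : v0 ∈ N.V := hinp ▸ h.inp_mem i0 hi0
  have hself : N.W v0 v0 = 0 := by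
    by_contra hc
    have := h.acyc v0 v0 hc
    omega
  have hcard : (N.V.filter fun v => N.W v v0 ≠ 0).card =
      ∑ v ∈ N.V.erase v0, if N.W v v0 ≠ 0 then 1 else 0 := by
    rw [Finset.card_filter, ← Finset.add_sum_erase _ _ hv0]
    simp [hself]
  rw [hcard]
  change ∑ v ∈ N.V.erase v0, (N.kill i0 v0).costAt v + _ ≤ _
  rw [← Finset.sum_add_distrib]
  refine le_trans ?_ (Finset.sum_le_sum_of_subset (Finset.erase_subset v0 N.V))
  refine Finset.sum_le_sum fun v hv => ?_
  have hv' := Finset.mem_erase.1 hv
  have hsub : (N.kill i0 v0).reads v ⊆ (N.reads v).erase v0 := by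
    intro u hu
    have hu := Net.mem_reads.1 hu
    have hu1 := Finset.mem_erase.1 hu.1
    exact Finset.mem_erase.2 ⟨hu1.1, Net.mem_reads.2 ⟨hu1.2, hu.2⟩⟩
  have hle := Finset.card_le_card hsub
  have e1 : (N.kill i0 v0).isIn v ≤ N.isIn v := by
    by_cases hm : v ∈ (N.kill i0 v0).I.image (N.kill i0 v0).inp
    · obtain ⟨i, hi, hiv⟩ := Finset.mem_image.1 hm
      have : v ∈ N.I.image N.inp :=
        Finset.mem_image.2 ⟨i, (Finset.mem_erase.1 hi).2, hiv⟩
      rw [Net.isIn_pos this, Net.isIn_pos hm]
    · rw [Net.isIn_zero hm]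
      exact Nat.zero_le _
  unfold Net.costAt
  by_cases hW : N.W v v0 = 0
  · rw [if_neg (by simpa using hW)]
    have : ((N.reads v).erase v0).card ≤ (N.reads v).card :=
      Finset.card_le_card (Finset.erase_subset _ _)
    omega
  · rw [if_pos hW]
    have hmem : v0 ∈ N.reads v := Net.mem_reads.2 ⟨hv0, hW⟩
    have hc := Finset.card_erase_of_mem hmem
    have hpos : 0 < (N.reads v).card := Finset.card_pos.2 ⟨v0, hmem⟩
    have h2 := hs v hv'.2 hW
    omega

/-- If the only successor of the first vertex `v0` is `v1` and both carry inputs, the columns are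
proportional. -/
theorem Net.OK.prop_col {N : Net α ι κ} (h : N.OK) {i0 i1 : ι} {v0 v1 : α} (hi0 : i0 ∈ N.I)
    (hi1 : i1 ∈ N.I) (hinp0 : N.inp i0 = v0) (hinp1 : N.inp i1 = v1) (hne : v0 ≠ v1)
    (hmin : ∀ v ∈ N.V, N.rk v0 ≤ N.rk v)
    (honly : ∀ v ∈ N.V, N.W v v0 ≠ 0 → v = v1) :
    ∀ v ∈ N.V, v ≠ v0 → N.f v i0 = N.W v1 v0 * N.f v i1 := by
  have hv0 : v0 ∈ N.V := hinp0 ▸ h.inp_mem i0 hi0
  have h00 : N.f v0 i0 = 1 := by
    rw [h.hf v0 hv0 i0 hi0, if_pos hinp0, Finset.sum_eq_zero, add_zero]
    intro u hu
    have : N.W v0 u = 0 := by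
      by_contra hc
      have := h.acyc v0 u hc
      have := hmin u hu
      omega
    rw [this, zero_mul]
  have h01 : N.f v0 i1 = 0 :=
    h.f_zero hi1 v0 hv0 (hmin _ (h.inp_mem i1 hi1)) (fun e' => hne (e'.trans hinp1))
  have key : ∀ r, ∀ v ∈ N.V, N.rk v = r → v ≠ v0 → N.f v i0 = N.W v1 v0 * N.f v i1 := by
    intro r
    induction r using Nat.strong_induction_on with
    | _ r ih =>
      intro v hv hr hvne
      rw [h.hf v hv i0 hi0, h.hf v hv i1 hi1, if_neg (fun e => hvne (e.symm.trans hinp0)),
        zero_add, ← Finset.add_sum_erase _ _ hv0, h00, mul_one,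
        ← Finset.add_sum_erase _ (fun u => N.W v u * N.f u i1) hv0, h01, mul_zero, zero_add,
        mul_add, Finset.mul_sum]
      congr 1
      · by_cases hvv : v = v1
        · subst hvv
          rw [if_pos hinp1, mul_one]
        · have : N.W v v0 = 0 := by
            by_contra hc
            exact hvv (honly v hv hc)
          rw [this, if_neg (fun e => hvv (e.symm.trans hinp1)), mul_zero]
      · refine Finset.sum_congr rfl fun u hu => ?_
        have hu' := Finset.mem_erase.1 hu
        by_cases hW : N.W v u = 0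
        · rw [hW]; ring
        · rw [ih (N.rk u) (hr ▸ h.acyc v u hW) u hu'.2 rfl hu'.1]
          ring
  intro v hv
  exact key _ v hv rfl

open Classical in
/-- **Elimination of inputs**: if all entries are nonzero and no two columns are proportional, the
network has at least `2 (m - 1)` additions, `m` the number of inputs. -/
theorem Net.two_mul_le_cost : ∀ (m : ℕ) (N : Net α ι κ), N.OK → N.V.card = m → N.Full →
    (∀ i ∈ N.I, ∀ i' ∈ N.I, i ≠ i' → N.ColNP N.J i i') → 2 * (N.I.card - 1) ≤ N.cost := by
  intro m
  induction m using Nat.strong_induction_on with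
  | _ m ih =>
    intro N h hm hfull hcol
    by_cases hI : N.I.card ≤ 1
    · have : N.I.card - 1 = 0 := by omega
      rw [this]
      exact Nat.zero_le _
    have hI2 : 1 < N.I.card := by omega
    obtain ⟨a, ha, b, hb, hab⟩ := Finset.one_lt_card.1 hI2
    have hVne : N.V.Nonempty := ⟨_, h.inp_mem a ha⟩
    obtain ⟨v0, hv0, hmin⟩ := Finset.exists_min_image N.V N.rk hVne
    -- deletion makes the number of vertices smaller
    have hcardlt : (N.V.erase v0).card < m := by
      rw [Finset.card_erase_of_mem hv0, hm]
      have : 0 < N.V.card := Finset.card_pos.2 hVne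
      omega
    by_cases hin : v0 ∈ N.I.image N.inp
    swap
    · -- the first vertex carries no input: its value is zero
      have hz : ∀ i ∈ N.I, N.f v0 i = 0 := fun i hi =>
        h.f_zero hi v0 hv0 (hmin _ (h.inp_mem i hi))
          (fun e => hin (Finset.mem_image.2 ⟨i, hi, e.symm⟩))
      have hout : ∀ j ∈ N.J, N.out j ≠ v0 := by
        intro j hj e
        exact hfull j hj a ha (by rw [e]; exact hz a ha)
      have hok := h.del hin hout (fun v _ _ i hi => by rw [hz i hi, mul_zero])
      have := ih _ hcardlt (N.del v0) hok rfl hfull hcol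
      exact this.trans (N.cost_del_le v0)
    · obtain ⟨i0, hi0, hinp⟩ := Finset.mem_image.1 hin
      -- another input
      obtain ⟨b', hb', hbne⟩ : ∃ b' ∈ N.I, b' ≠ i0 := by
        by_cases e : a = i0
        · exact ⟨b, hb, fun e' => hab (e.trans e'.symm)⟩
        · exact ⟨a, ha, e⟩
      have hz : ∀ i ∈ N.I, i ≠ i0 → N.f v0 i = 0 := fun i hi hne =>
        h.f_zero hi v0 hv0 (hmin _ (h.inp_mem i hi))
          (fun e => hne (h.inj i hi i0 hi0 (e.symm.trans hinp.symm)))
      have hout : ∀ j ∈ N.J, N.out j ≠ v0 := by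
        intro j hj e
        exact hfull j hj b' hb' (by rw [e]; exact hz b' hb' hbne)
      by_cases hB1 : ∃ v1 ∈ N.V, N.W v1 v0 ≠ 0 ∧ v1 ∉ N.I.image N.inp ∧
          ∀ u ∈ N.reads v1, u = v0
      · obtain ⟨v1, hv1, hW1, hin1, hr⟩ := hB1
        have hlt := h.acyc v1 v0 hW1
        have hne : v0 ≠ v1 := by rintro rfl; omega
        have hout1 : ∀ j ∈ N.J, N.out j ≠ v1 := by
          intro j hj e
          refine hfull j hj b' hb' ?_
          rw [e, h.f_single hv1 hv0 hin1 hr hb', hz b' hb' hbne, mul_zero]
        have hok := h.merge hv1 hv0 hne hin1 hout1 hr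
        have hlt2 : (N.V.erase v1).card < m := by
          rw [Finset.card_erase_of_mem hv1, hm]
          have : 0 < N.V.card := Finset.card_pos.2 hVne
          omega
        have := ih _ hlt2 (N.merge v0 v1) hok rfl hfull hcol
        exact this.trans (N.cost_merge_le hv1 hv0)
      · have hs : ∀ v ∈ N.V, N.W v v0 ≠ 0 → 2 ≤ (N.reads v).card + N.isIn v := by
          intro v hv hW
          have hmem : v0 ∈ N.reads v := Net.mem_reads.2 ⟨hv0, hW⟩
          have hpos : 0 < (N.reads v).card := Finset.card_pos.2 ⟨v0, hmem⟩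
          by_cases hvin : v ∈ N.I.image N.inp
          · rw [Net.isIn_pos hvin]
            omega
          · have : ∃ u ∈ N.reads v, u ≠ v0 := by
              by_contra hcon
              push Not at hcon
              exact hB1 ⟨v, hv, hW, hvin, hcon⟩
            obtain ⟨u, hu, hne⟩ := this
            have : 1 < (N.reads v).card := Finset.one_lt_card.2 ⟨u, hu, v0, hmem, hne⟩
            omega
        by_cases hb2 : 2 ≤ (N.V.filter fun v => N.W v v0 ≠ 0).card
        · -- set the input to zero
          have hok := h.kill hi0 hinp hmin hout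
          have hfull' : (N.kill i0 v0).Full := fun j hj i hi =>
            hfull j hj i (Finset.mem_erase.1 hi).2
          have hcol' : ∀ i ∈ (N.kill i0 v0).I, ∀ i' ∈ (N.kill i0 v0).I, i ≠ i' →
              (N.kill i0 v0).ColNP (N.kill i0 v0).J i i' := fun i hi i' hi' =>
            hcol i (Finset.mem_erase.1 hi).2 i' (Finset.mem_erase.1 hi').2
          have h1 := ih _ hcardlt (N.kill i0 v0) hok rfl hfull' hcol'
          have h2 := N.cost_kill_le h hi0 hinp hs
          have h3 : (N.kill i0 v0).I.card = N.I.card - 1 := Finset.card_erase_of_mem hi0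
          omega
        · -- at most one successor
          have hle1 : (N.V.filter fun v => N.W v v0 ≠ 0).card ≤ 1 := by omega
          -- there is an output
          obtain ⟨j, hj, j', hj', hjj⟩ := hcol i0 hi0 b' hb' (Ne.symm hbne)
          rw [Finset.card_le_one] at hle1
          by_cases hemp : ∃ v1 ∈ N.V, N.W v1 v0 ≠ 0
          · obtain ⟨v1, hv1, hW1⟩ := hemp
            have hlt := h.acyc v1 v0 hW1
            have hne : v0 ≠ v1 := by rintro rfl; omega
            have honly : ∀ v ∈ N.V, N.W v v0 ≠ 0 → v = v1 := fun v hv hW =>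
              hle1 v (Finset.mem_filter.2 ⟨hv, hW⟩) v1 (Finset.mem_filter.2 ⟨hv1, hW1⟩)
            by_cases hin1 : v1 ∈ N.I.image N.inp
            · exfalso
              obtain ⟨i1, hi1, hinp1⟩ := Finset.mem_image.1 hin1
              have hp := h.prop_col hi0 hi1 hinp hinp1 hne hmin honly
              have hi01 : i0 ≠ i1 := by
                rintro rfl
                exact hne (hinp.symm.trans hinp1)
              obtain ⟨k, hk, k', hk', hkk⟩ := hcol i0 hi0 i1 hi1 hi01
              apply hkk
              rw [hp _ (h.out_mem k hk) (hout k hk), hp _ (h.out_mem k' hk') (hout k' hk')]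
              ring
            · have hok := h.move hi0 hinp hmin hv1 hin1 hout hW1 honly
              have hfull' : (N.move i0 v0 v1).Full := by
                intro k hk i hi
                change (if i = i0 then N.f (N.out k) i / N.W v1 v0 else N.f (N.out k) i) ≠ 0
                split_ifs
                · exact div_ne_zero (hfull k hk i hi) hW1
                · exact hfull k hk i hi
              have hcol' : ∀ i ∈ (N.move i0 v0 v1).I, ∀ i' ∈ (N.move i0 v0 v1).I, i ≠ i' →
                  (N.move i0 v0 v1).ColNP (N.move i0 v0 v1).J i i' := by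
                intro i hi i' hi' hii
                obtain ⟨k, hk, k', hk', hkk⟩ := hcol i hi i' hi' hii
                refine ⟨k, hk, k', hk', ?_⟩
                change (if i = i0 then N.f (N.out k) i / N.W v1 v0 else N.f (N.out k) i) *
                  (if i' = i0 then N.f (N.out k') i' / N.W v1 v0 else N.f (N.out k') i') ≠
                  (if i' = i0 then N.f (N.out k) i' / N.W v1 v0 else N.f (N.out k) i') *
                  (if i = i0 then N.f (N.out k') i / N.W v1 v0 else N.f (N.out k') i)
                split_ifs with e1 e2 e2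
                · exact absurd (e1.trans e2.symm) hii
                · intro e
                  apply hkk
                  field_simp at e
                  linear_combination e
                · intro e
                  apply hkk
                  field_simp at e
                  linear_combination e
                · exact hkk
              have h1 := ih _ hcardlt (N.move i0 v0 v1) hok rfl hfull' hcol'
              exact h1.trans (N.cost_move_le h hi0 hinp hv1 hin1 hW1)
          · -- no successor: the column vanishes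
            exfalso
            push Not at hemp
            have hz0 : ∀ r, ∀ v ∈ N.V, N.rk v = r → v ≠ v0 → N.f v i0 = 0 := by
              intro r
              induction r using Nat.strong_induction_on with
              | _ r ih2 =>
                intro v hv hr hvne
                rw [h.hf v hv i0 hi0, if_neg (fun e => hvne (e.symm.trans hinp)), zero_add]
                refine Finset.sum_eq_zero fun u hu => ?_
                by_cases hu0 : u = v0
                · rw [hu0, hemp v hv, zero_mul]
                · by_cases hW : N.W v u = 0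
                  · rw [hW, zero_mul]
                  · rw [ih2 (N.rk u) (hr ▸ h.acyc v u hW) u hu rfl hu0, mul_zero]
            exact hfull j hj i0 hi0 (hz0 _ _ (h.out_mem j hj) rfl (hout j hj))

end Vale.Agent.P344.H227
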