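import Vale.Agent.P344.H227.Elim

/-!
# Elimination of outputs
-/

set_option linter.unusedSectionVars false

namespace Vale.Agent.P344.H227

open Finset

variable {α ι κ : Type} [DecidableEq α] [DecidableEq ι] [DecidableEq κ]

/-- **Moving** the output `j0` from a last vertex to its only predecessor `u1`. -/
def Net.moveOut (N : Net α ι κ) (j0 : κ) (v1 u1 : α) : Net α ι κ :=
  { N with V := N.V.erase v1, out := Function.update N.out j0 u1 }

/-- **Dropping** the output `j0` at a last vertex. -/
def Net.drop (N : Net α ι κ) (j0 : κ) (v1 : α) : Net α ι κ :=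
  { N with V := N.V.erase v1, J := N.J.erase j0 }

open Classical in
/-- **Elimination of outputs, then inputs**: if all entries are nonzero, no two rows are
proportional, and no two columns are proportional on any set of `q0` rows, the network has at least
`2 (m - 1) + (q - q0)` additions, `m` and `q` the numbers of inputs and outputs. -/
theorem Net.two_mul_add_le_cost (q0 : ℕ) (hq0 : 1 ≤ q0) :
    ∀ (m : ℕ) (N : Net α ι κ), N.OK → N.V.card = m → N.Full → N.RowNP → N.I.Nonempty →
    (∀ J' ⊆ N.J, q0 ≤ J'.card → ∀ i ∈ N.I, ∀ i' ∈ N.I, i ≠ i' → N.ColNP J' i i') →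
    q0 ≤ N.J.card → 2 * (N.I.card - 1) + (N.J.card - q0) ≤ N.cost := by
  intro m
  induction m using Nat.strong_induction_on with
  | _ m ih =>
    intro N h hm hfull hrow hI hcol hJ
    by_cases hJq : N.J.card = q0
    · rw [hJq, Nat.sub_self, add_zero]
      exact Net.two_mul_le_cost _ N h rfl hfull (hcol N.J (Finset.Subset.refl _) hJ)
    have hJ1 : 1 < N.J.card := by omega
    obtain ⟨a, ha, b, hb, hab⟩ := Finset.one_lt_card.1 hJ1
    obtain ⟨iI, hiI⟩ := hI
    have hVne : N.V.Nonempty := ⟨_, h.out_mem a ha⟩
    obtain ⟨v1, hv1, hmax⟩ := Finset.exists_max_image N.V N.rk hVne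
    have hcardlt : (N.V.erase v1).card < m := by
      rw [Finset.card_erase_of_mem hv1, hm]
      have : 0 < N.V.card := Finset.card_pos.2 hVne
      omega
    have hlast : ∀ v ∈ N.V, N.W v v1 = 0 := by
      intro v hv
      by_contra hc
      have := h.acyc v v1 hc
      have := hmax v hv
      omega
    -- two outputs do not share a vertex
    have hinj : ∀ j ∈ N.J, ∀ j' ∈ N.J, N.out j = N.out j' → j = j' := by
      intro j hj j' hj' e
      by_contra hne
      obtain ⟨i, _, i', _, hii⟩ := hrow j hj j' hj' hne
      apply hii
      rw [e]
      ring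
    -- the last vertex carries no input
    have hin : v1 ∉ N.I.image N.inp := by
      intro hin
      obtain ⟨i, hi, hinp⟩ := Finset.mem_image.1 hin
      obtain ⟨j, hj, hjne⟩ : ∃ j ∈ N.J, N.out j ≠ v1 := by
        by_cases e : N.out a = v1
        · exact ⟨b, hb, fun e' => hab (hinj a ha b hb (e.trans e'.symm))⟩
        · exact ⟨a, ha, e⟩
      refine hfull j hj i hi (h.f_zero hi _ (h.out_mem j hj) ?_ (by rw [hinp]; exact hjne))
      rw [hinp]
      exact hmax _ (h.out_mem j hj)
    by_cases hA : v1 ∈ N.J.image N.out
    swap
    · have hout : ∀ j ∈ N.J, N.out j ≠ v1 := fun j hj e =>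
        hA (Finset.mem_image.2 ⟨j, hj, e⟩)
      have hok := h.del hin hout (fun v hv _ i hi => by rw [hlast v hv, zero_mul])
      have := ih _ hcardlt (N.del v1) hok rfl hfull hrow ⟨iI, hiI⟩ hcol hJ
      exact this.trans (N.cost_del_le v1)
    · obtain ⟨j1, hj1, hout1⟩ := Finset.mem_image.1 hA
      have houtne : ∀ j ∈ N.J, j ≠ j1 → N.out j ≠ v1 := fun j hj hne e =>
        hne (hinj j hj j1 hj1 (e.trans hout1.symm))
      -- the last vertex reads something
      have hne0 : (N.reads v1).Nonempty := by
        by_contra hcon
        rw [Finset.not_nonempty_iff_eq_empty] at hcon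
        refine hfull j1 hj1 iI hiI ?_
        rw [hout1, h.hf v1 hv1 iI hiI,
          if_neg (fun e => hin (Finset.mem_image.2 ⟨iI, hiI, e⟩)), zero_add]
        refine Finset.sum_eq_zero fun u hu => ?_
        have : N.W v1 u = 0 := by
          by_contra hW
          have : u ∈ N.reads v1 := Net.mem_reads.2 ⟨hu, hW⟩
          rw [hcon] at this
          exact absurd this (Finset.notMem_empty _)
        rw [this, zero_mul]
      by_cases hone : (N.reads v1).card = 1
      · obtain ⟨u1, hu1⟩ := Finset.card_eq_one.1 hone
        have hmem : u1 ∈ N.reads v1 := by rw [hu1]; exact Finset.mem_singleton_self _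
        obtain ⟨hu1V, hW⟩ := Net.mem_reads.1 hmem
        have hlt := h.acyc v1 u1 hW
        have hune : u1 ≠ v1 := by rintro rfl; omega
        have hval : ∀ i ∈ N.I, N.f v1 i = N.W v1 u1 * N.f u1 i := fun i hi =>
          h.f_single hv1 hu1V hin (fun u hu => by
            rw [hu1] at hu; exact Finset.mem_singleton.1 hu) hi
        -- values of the outputs in the new network
        have hf' : ∀ j ∈ N.J, ∀ i ∈ N.I, N.f (N.out j) i =
            (if j = j1 then N.W v1 u1 else 1) * N.f (Function.update N.out j1 u1 j) i := by
          intro j hj i hi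
          by_cases e : j = j1
          · subst e
            rw [if_pos rfl, Function.update_self, hout1, hval i hi]
          · rw [if_neg e, Function.update_of_ne e, one_mul]
        have hok : (N.moveOut j1 v1 u1).OK :=
          { acyc := h.acyc
            inp_mem := fun i hi => Finset.mem_erase.2
              ⟨fun e => hin (Finset.mem_image.2 ⟨i, hi, e⟩), h.inp_mem i hi⟩
            inj := h.inj
            out_mem := by
              intro j hj
              change Function.update N.out j1 u1 j ∈ N.V.erase v1
              by_cases e : j = j1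
              · subst e
                rw [Function.update_self]
                exact Finset.mem_erase.2 ⟨hune, hu1V⟩
              · rw [Function.update_of_ne e]
                exact Finset.mem_erase.2 ⟨houtne j hj e, h.out_mem j hj⟩
            hf := by
              intro v hv i hi
              have hv' := Finset.mem_erase.1 hv
              change N.f v i = _ + ∑ u ∈ N.V.erase v1, N.W v u * N.f u i
              rw [h.hf v hv'.2 i hi, ← Finset.add_sum_erase _ _ hv1, hlast v hv'.2, zero_mul,
                zero_add]
              rfl }
        have hfull' : (N.moveOut j1 v1 u1).Full := by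
          intro j hj i hi hz
          refine hfull j hj i hi ?_
          rw [hf' j hj i hi]
          change N.f (Function.update N.out j1 u1 j) i = 0 at hz
          rw [hz, mul_zero]
        have hrow' : (N.moveOut j1 v1 u1).RowNP := by
          intro j hj j' hj' hjj
          obtain ⟨i, hi, i', hi', hii⟩ := hrow j hj j' hj' hjj
          refine ⟨i, hi, i', hi', fun e => hii ?_⟩
          change N.f (Function.update N.out j1 u1 j) i * N.f (Function.update N.out j1 u1 j') i' =
            N.f (Function.update N.out j1 u1 j) i' * N.f (Function.update N.out j1 u1 j') i at e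
          rw [hf' j hj i hi, hf' j' hj' i' hi', hf' j hj i' hi', hf' j' hj' i hi]
          linear_combination (if j = j1 then N.W v1 u1 else 1) *
            (if j' = j1 then N.W v1 u1 else 1) * e
        have hcol' : ∀ J' ⊆ (N.moveOut j1 v1 u1).J, q0 ≤ J'.card →
            ∀ i ∈ (N.moveOut j1 v1 u1).I, ∀ i' ∈ (N.moveOut j1 v1 u1).I, i ≠ i' →
            (N.moveOut j1 v1 u1).ColNP J' i i' := by
          intro J' hJ' hc i hi i' hi' hii
          obtain ⟨j, hj, j', hj', hjj⟩ := hcol J' hJ' hc i hi i' hi' hii
          refine ⟨j, hj, j', hj', fun e => hjj ?_⟩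
          change N.f (Function.update N.out j1 u1 j) i * N.f (Function.update N.out j1 u1 j') i' =
            N.f (Function.update N.out j1 u1 j) i' * N.f (Function.update N.out j1 u1 j') i at e
          rw [hf' j (hJ' hj) i hi, hf' j' (hJ' hj') i' hi', hf' j (hJ' hj) i' hi',
            hf' j' (hJ' hj') i hi]
          linear_combination (if j = j1 then N.W v1 u1 else 1) *
            (if j' = j1 then N.W v1 u1 else 1) * e
        have := ih _ hcardlt (N.moveOut j1 v1 u1) hok rfl hfull' hrow' ⟨iI, hiI⟩ hcol' hJ
        exact this.trans (N.cost_del_le v1)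
      · -- at least two predecessors
        have hge : 2 ≤ (N.reads v1).card := by
          have := Finset.card_pos.2 hne0
          omega
        have hok : (N.drop j1 v1).OK :=
          { acyc := h.acyc
            inp_mem := fun i hi => Finset.mem_erase.2
              ⟨fun e => hin (Finset.mem_image.2 ⟨i, hi, e⟩), h.inp_mem i hi⟩
            inj := h.inj
            out_mem := by
              intro j hj
              have hj' := Finset.mem_erase.1 hj
              exact Finset.mem_erase.2 ⟨houtne j hj'.2 hj'.1, h.out_mem j hj'.2⟩
            hf := by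
              intro v hv i hi
              have hv' := Finset.mem_erase.1 hv
              change N.f v i = _ + ∑ u ∈ N.V.erase v1, N.W v u * N.f u i
              rw [h.hf v hv'.2 i hi, ← Finset.add_sum_erase _ _ hv1, hlast v hv'.2, zero_mul,
                zero_add]
              rfl }
        have hfull' : (N.drop j1 v1).Full := fun j hj i hi =>
          hfull j (Finset.mem_erase.1 hj).2 i hi
        have hrow' : (N.drop j1 v1).RowNP := fun j hj j' hj' hjj =>
          hrow j (Finset.mem_erase.1 hj).2 j' (Finset.mem_erase.1 hj').2 hjj
        have hJc : (N.drop j1 v1).J.card = N.J.card - 1 := Finset.card_erase_of_mem hj1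
        have hcol' : ∀ J' ⊆ (N.drop j1 v1).J, q0 ≤ J'.card →
            ∀ i ∈ (N.drop j1 v1).I, ∀ i' ∈ (N.drop j1 v1).I, i ≠ i' →
            (N.drop j1 v1).ColNP J' i i' := fun J' hJ' =>
          hcol J' (hJ'.trans (Finset.erase_subset _ _))
        have h1 := ih _ hcardlt (N.drop j1 v1) hok rfl hfull' hrow' ⟨iI, hiI⟩ hcol'
          (by rw [hJc]; omega)
        have h2 : (N.drop j1 v1).cost + N.costAt v1 ≤ N.cost := by
          have e : N.cost = N.costAt v1 + ∑ v ∈ N.V.erase v1, N.costAt v :=
            (Finset.add_sum_erase _ _ hv1).symm
          rw [e, add_comm]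
          refine Nat.add_le_add_left (Finset.sum_le_sum fun v _ => ?_) _
          have : ((N.drop j1 v1).reads v).card ≤ (N.reads v).card := by
            refine Finset.card_le_card fun u hu => ?_
            rw [Net.mem_reads] at hu ⊢
            exact ⟨(Finset.mem_erase.1 hu.1).2, hu.2⟩
          have e : (N.drop j1 v1).isIn v = N.isIn v := rfl
          unfold Net.costAt
          rw [e]
          omega
        have h3 : 1 ≤ N.costAt v1 := by
          unfold Net.costAt
          omega
        have h4 : (N.drop j1 v1).I.card = N.I.card := rfl
        omega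

end Vale.Agent.P344.H227
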