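import Vale.Agent.P344.H227.Gal

/-!
# Linear lower bounds for the number of gates of a circuit for `F_n`
-/

set_option linter.unusedSectionVars false

namespace Vale.Agent.P344.H227

open Finset Polynomial

theorem dftMat_eq (n : ℕ) (j i : Fin n) : dftMat n j i = zeta n ^ ((j : ℕ) * (i : ℕ)) := rfl

theorem zeta_pow_eq {n : ℕ} (hn : 0 < n) {a b : ℕ} (h : zeta n ^ a = zeta n ^ b) :
    a ≡ b [MOD n] := by
  have hz := zeta_prim hn.ne'
  have hfin : IsOfFinOrder (zeta n) := isOfFinOrder_iff_pow_eq_one.2 ⟨n, hn, hz.pow_eq_one⟩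
  have := (hfin.pow_eq_pow_iff_modEq).1 h
  rwa [← hz.eq_orderOf] at this

/-- Rows of `F_n` are not proportional. -/
theorem dft_rows {n : ℕ} (hn : 2 ≤ n) (j j' : Fin n) (hne : j ≠ j') :
    ∃ i i', dftMat n j i * dftMat n j' i' ≠ dftMat n j i' * dftMat n j' i := by
  refine ⟨⟨0, by omega⟩, ⟨1, by omega⟩, fun h => hne ?_⟩
  simp only [dftMat_eq, mul_zero, pow_zero, mul_one, one_mul] at h
  have := zeta_pow_eq (by omega) h
  have h2 : (j' : ℕ) % n = (j : ℕ) % n := this
  rw [Nat.mod_eq_of_lt j.2, Nat.mod_eq_of_lt j'.2] at h2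
  exact Fin.ext h2.symm

/-- Columns of `F_n` are not proportional on more than `n / p` rows, `p` the least prime factor. -/
theorem dft_cols_aux {n : ℕ} (hn : 2 ≤ n) (J' : Finset (Fin n)) (hJ : n / n.minFac + 1 ≤ J'.card)
    (i i' : Fin n) (hlt : i' < i) :
    ∃ j ∈ J', ∃ j' ∈ J', dftMat n j i * dftMat n j' i' ≠ dftMat n j i' * dftMat n j' i := by
  by_contra hcon
  push Not at hcon
  have hn0 : 0 < n := by omega
  obtain ⟨c', hi, hc'⟩ : ∃ c' : ℕ, (i : ℕ) = i' + c' ∧ 0 < c' := by
    obtain ⟨c, hc⟩ := Nat.exists_eq_add_of_lt (Fin.lt_def.1 hlt)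
    exact ⟨c + 1, by omega, Nat.succ_pos _⟩
  have hcn : c' < n := by
    have := i.2
    omega
  -- the common difference
  have hmod : ∀ j ∈ J', ∀ j' ∈ J', (j : ℕ) * c' ≡ (j' : ℕ) * c' [MOD n] := by
    intro j hj j' hj'
    have h := hcon j hj j' hj'
    simp only [dftMat_eq, ← pow_add] at h
    have h1 := zeta_pow_eq hn0 h
    have e1 : (j : ℕ) * i + j' * i' = (j * i' + j' * i') + j * c' := by rw [hi]; ring
    have e2 : (j : ℕ) * i' + j' * i = (j * i' + j' * i') + j' * c' := by rw [hi]; ring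
    rw [e1, e2] at h1
    exact Nat.ModEq.add_left_cancel' _ h1
  set g := Nat.gcd n c' with hg
  have hgn : g ∣ n := Nat.gcd_dvd_left n c'
  have hgpos : 0 < g := Nat.gcd_pos_of_pos_left _ hn0
  have hglt : g < n := lt_of_le_of_lt (Nat.le_of_dvd (by omega) (Nat.gcd_dvd_right n c')) hcn
  obtain ⟨m, hm⟩ := hgn
  have hm1 : 1 < m := by
    by_contra hcon'
    have : m = 0 ∨ m = 1 := by omega
    rcases this with rfl | rfl
    · simp at hm
      omega
    · omega
  have hmdiv : n / g = m := by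
    conv_lhs => rw [hm]
    exact Nat.mul_div_cancel_left m hgpos
  have hpm : n.minFac ≤ m := Nat.minFac_le_of_dvd hm1 ⟨g, by rw [mul_comm]; exact hm⟩
  have hgle : g ≤ n / n.minFac := by
    rw [Nat.le_div_iff_mul_le (Nat.minFac_pos n)]
    calc g * n.minFac ≤ g * m := Nat.mul_le_mul_left _ hpm
      _ = n := hm.symm
  -- rows lie in one class modulo `m`
  have hcls : ∀ j ∈ J', ∀ j' ∈ J', (j : ℕ) % m = (j' : ℕ) % m := by
    intro j hj j' hj'
    have := (hmod j hj j' hj').cancel_right_div_gcd hn0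
    rw [← hg, hmdiv] at this
    exact this
  have hcard : J'.card ≤ (Finset.range g).card := by
    refine Finset.card_le_card_of_injOn (fun j => (j : ℕ) / m) ?_ ?_
    · intro j _
      rw [Finset.mem_coe, Finset.mem_range]
      exact Nat.div_lt_of_lt_mul (by rw [mul_comm, ← hm]; exact j.2)
    · intro j hj j' hj' e
      have e1 := hcls j hj j' hj'
      dsimp only at e
      have e2 := Nat.div_add_mod (j : ℕ) m
      have e3 := Nat.div_add_mod (j' : ℕ) m
      rw [e, e1] at e2
      exact Fin.ext (e2.symm.trans e3)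
  rw [Finset.card_range] at hcard
  omega

theorem dft_cols {n : ℕ} (hn : 2 ≤ n) (J' : Finset (Fin n)) (hJ : n / n.minFac + 1 ≤ J'.card)
    (i i' : Fin n) (hne : i ≠ i') :
    ∃ j ∈ J', ∃ j' ∈ J', dftMat n j i * dftMat n j' i' ≠ dftMat n j i' * dftMat n j' i := by
  rcases lt_or_gt_of_ne hne with h | h
  · obtain ⟨j, hj, j', hj', hh⟩ := dft_cols_aux hn J' hJ i' i h
    exact ⟨j, hj, j', hj', fun e => hh e.symm⟩
  · exact dft_cols_aux hn J' hJ i i' h

theorem dft_ne_zero (n : ℕ) (j i : Fin n) : dftMat n j i ≠ 0 := by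
  intro h
  have := norm_dftMat n j i
  rw [h, norm_zero] at this
  exact zero_ne_one this

/-- **Additions of a circuit for `F_n`.** -/
theorem dft_adds {n : ℕ} (hn : 2 ≤ n) (C : Circuit (Fin n) (Fin n)) (hC : C.Comp (dftMat n)) :
    3 * n ≤ C.adds.card + n / n.minFac + 3 := by
  have : Nonempty (Fin n) := ⟨⟨0, by omega⟩⟩
  have hq : n / n.minFac + 1 ≤ n := by
    have h2 : 2 ≤ n.minFac := (Nat.minFac_prime (by omega)).two_le
    have h3 : n / n.minFac ≤ n / 2 := Nat.div_le_div_left h2 (by norm_num)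
    omega
  have := adds_bound C hC (dft_ne_zero n) (dft_rows hn) (n / n.minFac + 1) (Nat.le_add_left _ _)
    (by rw [Fintype.card_fin]; exact hq) (fun J' hJ i i' hne => dft_cols hn J' hJ i i' hne)
  simp only [Fintype.card_fin] at this
  omega

/-- **Additions, matrices with nonzero minors of orders `1` and `2`.** -/
theorem adds_of_minors {m q : ℕ} (hm : 2 ≤ m) (hq : 2 ≤ q) (A : Matrix (Fin q) (Fin m) ℂ)
    (h1 : ∀ j i, A j i ≠ 0)
    (h2 : ∀ j j' i i', j ≠ j' → i ≠ i' → A j i * A j' i' ≠ A j i' * A j' i)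
    (C : Circuit (Fin m) (Fin q)) (hC : C.Comp A) : 2 * m + q ≤ C.adds.card + 4 := by
  have : Nonempty (Fin m) := ⟨⟨0, by omega⟩⟩
  have := adds_bound C hC h1
    (fun j j' hne => ⟨⟨0, by omega⟩, ⟨1, by omega⟩, h2 j j' _ _ hne (by simp)⟩) 2 (by norm_num)
    (by rw [Fintype.card_fin]; exact hq)
    (fun J' hJ i i' hne => by
      obtain ⟨a, ha, b, hb, hab⟩ := Finset.one_lt_card.1 (by omega : 1 < J'.card)
      exact ⟨a, ha, b, hb, h2 a b i i' hab hne⟩)
  simp only [Fintype.card_fin] at this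
  omega

open Classical in
/-- Additions and bad scalar gates are different gates. -/
theorem add_bad_le (k : Type) [Field k] [Algebra k ℂ] {n : ℕ} (C : Circuit (Fin n) (Fin n)) :
    C.adds.card + (Finset.univ.filter fun g => IsBad k (C.gate g)).card ≤ Fintype.card C.G := by
  have hd : Disjoint C.adds (Finset.univ.filter fun g => IsBad k (C.gate g)) := by
    rw [Finset.disjoint_left]
    intro g hg hg'
    have h1 := (Finset.mem_filter.1 hg).2
    have h2 := (Finset.mem_filter.1 hg').2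
    cases hgg : C.gate g with
    | add p q => rw [hgg] at h2; exact h2
    | sub p q => rw [hgg] at h2; exact h2
    | smul c p => rw [hgg] at h1; exact h1
  rw [← Finset.card_union_of_disjoint hd]
  exact Finset.card_le_univ _

/-- **Gates of a circuit for `F_n`.** -/
theorem gates_bound {n : ℕ} (hn : 2 ≤ n) : 4 * n ≤ L n + n / n.minFac + n.divisors.card + 3 := by
  classical
  obtain ⟨C, hC, hcard⟩ := (isLeast_comp (n := n) (by omega)).1
  have h1 := dft_adds hn C hC
  have h2 := scalar_bound (k := ℚ) (by omega) (cyclotomic.irreducible_rat (by omega)) C hC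
  have h3 := add_bad_le ℚ C
  rw [hcard] at h3
  omega

/-- The number of divisors is at most `2 √n`. -/
theorem card_divisors_le (n : ℕ) : n.divisors.card ≤ 2 * Nat.sqrt n := by
  classical
  rcases Nat.eq_zero_or_pos n with rfl | hn
  · simp
  have h1 : n.divisors ⊆ (Finset.Icc 1 (Nat.sqrt n)) ∪
      (Finset.Icc 1 (Nat.sqrt n)).image fun d => n / d := by
    intro d hd
    have hdn := Nat.dvd_of_mem_divisors hd
    have hdpos := Nat.pos_of_dvd_of_pos hdn hn
    rw [Finset.mem_union]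
    by_cases h : d ≤ Nat.sqrt n
    · exact Or.inl (Finset.mem_Icc.2 ⟨hdpos, h⟩)
    · refine Or.inr (Finset.mem_image.2 ⟨n / d, Finset.mem_Icc.2 ⟨?_, ?_⟩,
        Nat.div_div_self hdn hn.ne'⟩)
      · exact Nat.div_pos (Nat.le_of_dvd hn hdn) hdpos
      · by_contra hcon
        push Not at h hcon
        have h3 : (Nat.sqrt n + 1) * (Nat.sqrt n + 1) ≤ d * (n / d) :=
          Nat.mul_le_mul (by omega) (by omega)
        rw [Nat.mul_div_cancel' hdn] at h3
        have h4 := Nat.lt_succ_sqrt n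
        have : n < (Nat.sqrt n + 1) * (Nat.sqrt n + 1) := h4
        omega
  calc n.divisors.card ≤ _ := Finset.card_le_card h1
    _ ≤ (Finset.Icc 1 (Nat.sqrt n)).card +
        ((Finset.Icc 1 (Nat.sqrt n)).image fun d => n / d).card := Finset.card_union_le _ _
    _ ≤ (Finset.Icc 1 (Nat.sqrt n)).card + (Finset.Icc 1 (Nat.sqrt n)).card :=
        Nat.add_le_add_left Finset.card_image_le _
    _ = 2 * Nat.sqrt n := by
        rw [Nat.card_Icc]
        omega

theorem gates_bound_all {n : ℕ} (hn : 2 ≤ n) :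
    (7 / 2 : ℝ) * n - 2 * Real.sqrt n - 3 ≤ L n := by
  have h1 := gates_bound hn
  have h2 := card_divisors_le n
  have h3 : n / n.minFac ≤ n / 2 :=
    Nat.div_le_div_left (Nat.minFac_prime (by omega)).two_le (by norm_num)
  have h4 : (Nat.sqrt n : ℝ) ≤ Real.sqrt n := Real.nat_sqrt_le_real_sqrt
  have h5 : 8 * n ≤ 2 * L n + n + 4 * Nat.sqrt n + 6 := by omega
  have h6 : (8 : ℝ) * n ≤ 2 * L n + n + 4 * Nat.sqrt n + 6 := by exact_mod_cast h5
  linarith

theorem gates_bound_prime {p : ℕ} (hp : p.Prime) : 4 * p ≤ L p + 6 := by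
  have h1 := gates_bound hp.two_le
  have h2 : p / p.minFac = 1 := by
    rw [hp.minFac_eq]
    exact Nat.div_self hp.pos
  have h3 : p.divisors.card = 2 := by
    rw [hp.divisors, Finset.card_pair hp.one_lt.ne]
  omega

end Vale.Agent.P344.H227
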