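import Vale.Agent.P344.H227.Scal

/-!
# Vectors on which the Fourier transform is defined over a small field
-/

set_option linter.unusedSectionVars false

namespace Vale.Agent.P344.H227

open Finset Polynomial

/-- Inversion of the transform with the root `w`. -/
theorem inversion {n : ℕ} {w : ℂ} (hw : IsPrimitiveRoot w n) (x : Fin n → ℂ) (l : Fin n) :
    ∑ j : Fin n, (w⁻¹) ^ ((j : ℕ) * (l : ℕ)) * ∑ i : Fin n, x i * w ^ ((j : ℕ) * (i : ℕ)) =
      n * x l := by
  have hn : 0 < n := lt_of_le_of_lt (Nat.zero_le _) l.2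
  have hw0 : w ≠ 0 := hw.ne_zero hn.ne'
  have h1 : ∀ i : Fin n, ∑ j : Fin n, (w⁻¹) ^ ((j : ℕ) * (l : ℕ)) * w ^ ((j : ℕ) * (i : ℕ)) =
      if i = l then (n : ℂ) else 0 := by
    intro i
    have e : ∀ j : Fin n, (w⁻¹) ^ ((j : ℕ) * (l : ℕ)) * w ^ ((j : ℕ) * (i : ℕ)) =
        (w ^ (i : ℕ) * (w⁻¹) ^ (l : ℕ)) ^ (j : ℕ) := by
      intro j
      rw [mul_pow, ← pow_mul, ← pow_mul, mul_comm (i : ℕ), mul_comm (l : ℕ), mul_comm]
    rw [Finset.sum_congr rfl fun j _ => e j,
      Fin.sum_univ_eq_sum_range (fun j => (w ^ (i : ℕ) * (w⁻¹) ^ (l : ℕ)) ^ j) n]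
    by_cases hil : i = l
    · subst hil
      rw [if_pos rfl, ← mul_pow, mul_inv_cancel₀ hw0]
      simp
    · rw [if_neg hil, geom_sum_eq]
      · rw [mul_pow, ← pow_mul, ← pow_mul, mul_comm (i : ℕ), mul_comm (l : ℕ), pow_mul, pow_mul,
          inv_pow, hw.pow_eq_one]
        simp
      · intro h
        apply hil
        rw [inv_pow, mul_inv_eq_one₀ (pow_ne_zero _ hw0)] at h
        exact Fin.ext (hw.pow_inj i.2 l.2 h)
  calc _ = ∑ j : Fin n, ∑ i : Fin n,
        x i * ((w⁻¹) ^ ((j : ℕ) * (l : ℕ)) * w ^ ((j : ℕ) * (i : ℕ))) := by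
        refine Finset.sum_congr rfl fun j _ => ?_
        rw [Finset.mul_sum]
        exact Finset.sum_congr rfl fun i _ => by ring
    _ = ∑ i : Fin n, x i * (if i = l then (n : ℂ) else 0) := by
        rw [Finset.sum_comm]
        refine Finset.sum_congr rfl fun i _ => ?_
        rw [← Finset.mul_sum, h1]
    _ = n * x l := by
        simp [mul_comm]

variable {k : Type} [Field k] [Algebra k ℂ]

/-- A polynomial relation over `k` for one primitive root holds for all of them. -/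
theorem relation_conj {n : ℕ} (hn : 0 < n) (hk : Irreducible (cyclotomic n k)) {z : ℂ}
    (hz : IsPrimitiveRoot z n) {w : ℂ} (hw : IsPrimitiveRoot w n) {P : k[X]}
    (hP : aeval z P = 0) : aeval w P = 0 := by
  have hroot : ∀ {v : ℂ}, IsPrimitiveRoot v n → aeval v (cyclotomic n k) = 0 := by
    intro v hv
    have := hv.isRoot_cyclotomic hn
    rw [IsRoot, ← map_cyclotomic n (algebraMap k ℂ), eval_map_algebraMap] at this
    exact this
  have h1 := minpoly.eq_of_irreducible_of_monic hk (hroot hz) (cyclotomic.monic n k)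
  obtain ⟨Q, hQ⟩ := minpoly.dvd k z hP
  rw [hQ, map_mul, ← h1, hroot hw, zero_mul]

/-- Points of `k^n` with transform in `k^n` are invariant under multiplication of the index by
units. -/
theorem invariant {n : ℕ} (hk : Irreducible (cyclotomic n k)) {z : ℂ}
    (hz : IsPrimitiveRoot z n) {x : Fin n → k}
    (hx : ∀ j : Fin n, ∑ i : Fin n, x i • z ^ ((j : ℕ) * (i : ℕ)) ∈ Set.range (algebraMap k ℂ))
    {a : ℕ} (ha : a.Coprime n) (l l' : Fin n) (hl : (l' : ℕ) ≡ a * l [MOD n]) :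
    x l' = x l := by
  have hn : 0 < n := lt_of_le_of_lt (Nat.zero_le _) l.2
  choose r hr using hx
  have hw : IsPrimitiveRoot (z ^ a) n := hz.pow_of_coprime a ha
  have hrel : ∀ j : Fin n, ∑ i : Fin n, algebraMap k ℂ (x i) * (z ^ a) ^ ((j : ℕ) * (i : ℕ)) =
      algebraMap k ℂ (r j) := by
    intro j
    let P : k[X] := ∑ i : Fin n, C (x i) * X ^ ((j : ℕ) * (i : ℕ)) - C (r j)
    have hev : ∀ v : ℂ, aeval v P =
        ∑ i : Fin n, algebraMap k ℂ (x i) * v ^ ((j : ℕ) * (i : ℕ)) - algebraMap k ℂ (r j) := by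
      intro v
      simp [P]
    have h0 : aeval z P = 0 := by
      rw [hev, hr j, sub_eq_zero]
      exact Finset.sum_congr rfl fun i _ => by rw [Algebra.smul_def]
    have := relation_conj hn hk hz hw h0
    rw [hev] at this
    exact sub_eq_zero.1 this
  have hrel1 : ∀ j : Fin n, ∑ i : Fin n, algebraMap k ℂ (x i) * z ^ ((j : ℕ) * (i : ℕ)) =
      algebraMap k ℂ (r j) := by
    intro j
    rw [hr j]
    exact Finset.sum_congr rfl fun i _ => by rw [Algebra.smul_def]
  have e1 := inversion hz (fun i => algebraMap k ℂ (x i)) l'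
  have e2 := inversion hw (fun i => algebraMap k ℂ (x i)) l
  simp only [hrel1] at e1
  simp only [hrel] at e2
  have e3 : ∀ j : Fin n, ((z ^ a)⁻¹) ^ ((j : ℕ) * (l : ℕ)) = (z⁻¹) ^ ((j : ℕ) * (l' : ℕ)) := by
    intro j
    rw [← inv_pow, ← pow_mul]
    have hz1 : (z⁻¹) ^ n = 1 := by rw [inv_pow, hz.pow_eq_one, inv_one]
    have hmod : a * ((j : ℕ) * (l : ℕ)) ≡ (j : ℕ) * (l' : ℕ) [MOD n] := by
      have := (hl.mul_left (j : ℕ)).symm
      have e : a * ((j : ℕ) * (l : ℕ)) = (j : ℕ) * (a * (l : ℕ)) := by ring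
      rw [e]
      exact this
    rw [pow_eq_pow_mod _ hz1, hmod, ← pow_eq_pow_mod _ hz1]
  simp only [e3] at e2
  have hne : (n : ℂ) ≠ 0 := by exact_mod_cast hn.ne'
  have := mul_left_cancel₀ hne (e1.symm.trans e2)
  exact (algebraMap k ℂ).injective this

/-- The value at an index is the value at its greatest common divisor with `n`. -/
theorem eq_at_gcd {n : ℕ} (hk : Irreducible (cyclotomic n k)) {z : ℂ}
    (hz : IsPrimitiveRoot z n) {x : Fin n → k}
    (hx : ∀ j : Fin n, ∑ i : Fin n, x i • z ^ ((j : ℕ) * (i : ℕ)) ∈ Set.range (algebraMap k ℂ))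
    (l : Fin n) : ∃ d ∈ n.divisors, ∀ l' : Fin n, (l' : ℕ) = d % n → x l = x l' := by
  have hn : 0 < n := lt_of_le_of_lt (Nat.zero_le _) l.2
  obtain ⟨d, hd, u, hu, he⟩ := ZMod.eq_unit_mul_divisor ((l : ℕ) : ZMod n)
  haveI : NeZero n := ⟨hn.ne'⟩
  refine ⟨d, Nat.mem_divisors.2 ⟨hd, hn.ne'⟩, fun l' hl' => ?_⟩
  refine invariant hk hz hx (a := u.val) ?_ l' l ?_
  · exact (ZMod.isUnit_iff_coprime u.val n).1 (by rwa [ZMod.natCast_zmod_val])
  · rw [← ZMod.natCast_eq_natCast_iff, he, Nat.cast_mul, ZMod.natCast_zmod_val, hl',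
      ZMod.natCast_mod]

/-- **The space has dimension at most the number of divisors.** -/
theorem finrank_le {n : ℕ} (hk : Irreducible (cyclotomic n k)) {z : ℂ}
    (hz : IsPrimitiveRoot z n) (U : Submodule k (Fin n → k))
    (hU : ∀ x ∈ U, ∀ j : Fin n, ∑ i : Fin n, x i • z ^ ((j : ℕ) * (i : ℕ)) ∈
      Set.range (algebraMap k ℂ)) (hn : 0 < n) :
    Module.finrank k U ≤ n.divisors.card := by
  let R : U →ₗ[k] (n.divisors → k) :=
    { toFun := fun x d => x.1 ⟨d.1 % n, Nat.mod_lt _ hn⟩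
      map_add' := fun _ _ => rfl
      map_smul' := fun _ _ => rfl }
  have hR : Function.Injective R := by
    rw [← LinearMap.ker_eq_bot, LinearMap.ker_eq_bot']
    intro x hx
    refine Subtype.ext (funext fun l => ?_)
    obtain ⟨d, hd, h⟩ := eq_at_gcd hk hz (hU x.1 x.2) l
    rw [h ⟨d % n, Nat.mod_lt _ hn⟩ rfl]
    exact congrFun hx ⟨d, hd⟩
  have := LinearMap.finrank_le_finrank_of_injective hR
  rwa [Module.finrank_fintype_fun_eq_card, Fintype.card_coe] at this

open Classical in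
/-- **Scalar gates of a circuit for `F_n`.** -/
theorem scalar_bound {n : ℕ} (hn : 0 < n) (hk : Irreducible (cyclotomic n k))
    (C : Circuit (Fin n) (Fin n)) (hC : C.Comp (dftMat n)) :
    n ≤ (Finset.univ.filter fun g => IsBad k (C.gate g)).card + n.divisors.card := by
  obtain ⟨U, h1, h2⟩ := exists_subspace k C hC
  have hz : IsPrimitiveRoot (zeta n) n := zeta_prim hn.ne'
  have h3 := finrank_le hk hz U (fun x hx j => h2 x hx j) hn
  rw [Fintype.card_fin] at h1
  omega

end Vale.Agent.P344.H227
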