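import Mathlib

/-!
# Networks: counting additions by elimination of inputs and outputs

A network is a finite acyclic weighted graph.  Some vertices carry an input variable of their own.
We count the additions: a vertex with `d` incoming edges costs `d - 1` additions, a vertex with an
input variable `d`.
-/

namespace Vale.Agent.P344.H227

open Finset

/-- Data of a network with cells of type `α`, inputs of type `ι`, outputs of type `κ`. -/
structure Net (α ι κ : Type) where
  /-- topological rank -/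
  rk : α → ℕ
  /-- vertices in use -/
  V : Finset α
  /-- weight with which `v` reads `u` -/
  W : α → α → ℂ
  /-- inputs in use -/
  I : Finset ι
  /-- outputs in use -/
  J : Finset κ
  inp : ι → α
  out : κ → α
  /-- the transfer from an input to a vertex -/
  f : α → ι → ℂ

variable {α ι κ : Type} [DecidableEq α] [DecidableEq ι] [DecidableEq κ]

/-- Consistency of the data. -/
structure Net.OK (N : Net α ι κ) : Prop where
  acyc : ∀ v u, N.W v u ≠ 0 → N.rk u < N.rk v
  inp_mem : ∀ i ∈ N.I, N.inp i ∈ N.V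
  inj : ∀ i ∈ N.I, ∀ i' ∈ N.I, N.inp i = N.inp i' → i = i'
  out_mem : ∀ j ∈ N.J, N.out j ∈ N.V
  hf : ∀ v ∈ N.V, ∀ i ∈ N.I,
    N.f v i = (if N.inp i = v then 1 else 0) + ∑ u ∈ N.V, N.W v u * N.f u i

open Classical in
/-- The vertices read by `v`. -/
noncomputable def Net.reads (N : Net α ι κ) (v : α) : Finset α := N.V.filter fun u => N.W v u ≠ 0

/-- `1` at the vertices with an input variable. -/
def Net.isIn (N : Net α ι κ) (v : α) : ℕ := if v ∈ N.I.image N.inp then 1 else 0

/-- The number of additions at `v`. -/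
noncomputable def Net.costAt (N : Net α ι κ) (v : α) : ℕ := (N.reads v).card + N.isIn v - 1

/-- The number of additions. -/
noncomputable def Net.cost (N : Net α ι κ) : ℕ := ∑ v ∈ N.V, N.costAt v

/-- All entries of the matrix are nonzero. -/
def Net.Full (N : Net α ι κ) : Prop := ∀ j ∈ N.J, ∀ i ∈ N.I, N.f (N.out j) i ≠ 0

/-- The columns `i`, `i'` of the matrix are not proportional on the rows `J'`. -/
def Net.ColNP (N : Net α ι κ) (J' : Finset κ) (i i' : ι) : Prop :=
  ∃ j ∈ J', ∃ j' ∈ J', N.f (N.out j) i * N.f (N.out j') i' ≠ N.f (N.out j) i' * N.f (N.out j') i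

/-- No two rows are proportional. -/
def Net.RowNP (N : Net α ι κ) : Prop :=
  ∀ j ∈ N.J, ∀ j' ∈ N.J, j ≠ j' →
    ∃ i ∈ N.I, ∃ i' ∈ N.I,
      N.f (N.out j) i * N.f (N.out j') i' ≠ N.f (N.out j) i' * N.f (N.out j') i

omit [DecidableEq α] [DecidableEq ι] [DecidableEq κ] in
theorem Net.mem_reads {N : Net α ι κ} {v u : α} : u ∈ N.reads v ↔ u ∈ N.V ∧ N.W v u ≠ 0 := by
  simp [Net.reads]

theorem Net.isIn_pos {N : Net α ι κ} {v : α} (h : v ∈ N.I.image N.inp) : N.isIn v = 1 := by
  simp [Net.isIn, h]

theorem Net.isIn_zero {N : Net α ι κ} {v : α} (h : v ∉ N.I.image N.inp) : N.isIn v = 0 := by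
  simp [Net.isIn, h]

/-- A transfer vanishes before the input. -/
theorem Net.OK.f_zero {N : Net α ι κ} (h : N.OK) {i : ι} (hi : i ∈ N.I) :
    ∀ v ∈ N.V, N.rk v ≤ N.rk (N.inp i) → v ≠ N.inp i → N.f v i = 0 := by
  have key : ∀ r, ∀ v ∈ N.V, N.rk v = r → N.rk v ≤ N.rk (N.inp i) → v ≠ N.inp i →
      N.f v i = 0 := by
    intro r
    induction r using Nat.strong_induction_on with
    | _ r ih =>
      intro v hv hr hle hne
      rw [h.hf v hv i hi, if_neg (fun e => hne e.symm), zero_add]
      refine Finset.sum_eq_zero fun u hu => ?_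
      by_cases hW : N.W v u = 0
      · rw [hW, zero_mul]
      · have hlt := h.acyc v u hW
        rw [ih (N.rk u) (by omega) u hu rfl (by omega) (by rintro rfl; omega), mul_zero]
  intro v hv
  exact key _ v hv rfl

/-- **Deleting a vertex of value zero.** -/
def Net.del (N : Net α ι κ) (w : α) : Net α ι κ := { N with V := N.V.erase w }

theorem Net.OK.del {N : Net α ι κ} (h : N.OK) {w : α} (hin : w ∉ N.I.image N.inp)
    (hout : ∀ j ∈ N.J, N.out j ≠ w)
    (hz : ∀ v ∈ N.V, v ≠ w → ∀ i ∈ N.I, N.W v w * N.f w i = 0) : (N.del w).OK where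
  acyc := h.acyc
  inp_mem i hi := Finset.mem_erase.2
    ⟨fun e => hin (Finset.mem_image.2 ⟨i, hi, e⟩), h.inp_mem i hi⟩
  inj := h.inj
  out_mem j hj := Finset.mem_erase.2 ⟨hout j hj, h.out_mem j hj⟩
  hf v hv i hi := by
    have hv' := Finset.mem_erase.1 hv
    change N.f v i = _ + ∑ u ∈ N.V.erase w, N.W v u * N.f u i
    rw [h.hf v hv'.2 i hi]
    by_cases hw : w ∈ N.V
    · rw [← Finset.add_sum_erase _ _ hw, hz v hv'.2 hv'.1 i hi, zero_add]
      rfl
    · rw [Finset.erase_eq_of_notMem hw]
      rfl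

theorem Net.cost_del_le (N : Net α ι κ) (w : α) : (N.del w).cost ≤ N.cost := by
  have h1 : ∀ v ∈ (N.del w).V, (N.del w).costAt v ≤ N.costAt v := by
    intro v _
    have : ((N.del w).reads v).card ≤ (N.reads v).card := by
      refine Finset.card_le_card fun u hu => ?_
      rw [Net.mem_reads] at hu ⊢
      exact ⟨(Finset.mem_erase.1 hu.1).2, hu.2⟩
    have e : (N.del w).isIn v = N.isIn v := rfl
    unfold Net.costAt
    rw [e]
    omega
  refine (Finset.sum_le_sum h1).trans ?_
  exact Finset.sum_le_sum_of_subset (Finset.erase_subset _ _)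

end Vale.Agent.P344.H227
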