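import Vale.Agent.P344.H227.Circ

/-!
# Scalar gates of a linear circuit for the Fourier transform
-/

set_option linter.unusedSectionVars false

namespace Vale.Agent.P344.H227

open Finset

section general

variable {ι κ : Type} [Fintype ι] [DecidableEq ι] [Fintype κ]
variable (k : Type) [Field k] [Algebra k ℂ]

/-- The value of the linear form `v` at the point `x` with coordinates in `k`. -/
noncomputable def val (v : ι → ℂ) (x : ι → k) : ℂ := ∑ i, x i • v i

/-- Gate `g` multiplies by a number that does not lie in `k`. -/
def IsBad {α : Type} : Gate α → Prop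
  | .add _ _ => False
  | .sub _ _ => False
  | .smul c _ => c ∉ Set.range (algebraMap k ℂ)

/-- The cell read by a multiplication (and a dummy value for additions). -/
def argOf {α : Type} : Gate α → α
  | .add p _ => p
  | .sub p _ => p
  | .smul _ p => p

theorem val_add (v w : ι → ℂ) (x : ι → k) : val k (v + w) x = val k v x + val k w x := by
  simp [val, smul_add, Finset.sum_add_distrib]

theorem val_sub (v w : ι → ℂ) (x : ι → k) : val k (v - w) x = val k v x - val k w x := by
  simp [val, smul_sub, Finset.sum_sub_distrib]

theorem val_smul (c : ℂ) (v : ι → ℂ) (x : ι → k) : val k (c • v) x = c * val k v x := by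
  simp only [val, Pi.smul_apply, smul_eq_mul, Finset.mul_sum, Algebra.smul_def]
  exact Finset.sum_congr rfl fun i _ => by ring

/-- If the projections to `k` of the arguments of all bad gates vanish at `x`, all values at `x`
lie in `k`. -/
theorem val_mem (C : Circuit ι κ) {f : C.G → ι → ℂ} (hf : C.IsForms f) (φ : ℂ →ₗ[k] k)
    (hφ : ∀ a : k, φ (algebraMap k ℂ a) = a) (x : ι → k)
    (hx : ∀ g, IsBad k (C.gate g) → φ (val k (C.cell f (argOf (C.gate g))) x) = 0) :
    ∀ c, val k (C.cell f c) x ∈ Set.range (algebraMap k ℂ) := by
  have key : ∀ r, ∀ c, cellRk C c = r → val k (C.cell f c) x ∈ Set.range (algebraMap k ℂ) := by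
    intro r
    induction r using Nat.strong_induction_on with
    | _ r ih =>
      intro c hc
      match c with
      | .inl none =>
        refine ⟨0, ?_⟩
        simp [val, Circuit.cell]
      | .inl (some i) =>
        refine ⟨x i, ?_⟩
        simp [val, Circuit.cell, Pi.single_apply, Algebra.smul_def]
      | .inr g =>
        have hsub : ∀ c' ∈ (C.gate g).args,
            val k (C.cell f c') x ∈ Set.range (algebraMap k ℂ) := by
          intro c' hc'
          refine ih (cellRk C c') ?_ c' rfl
          rw [← hc]
          match c' with
          | .inl _ => exact C.depth_pos g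
          | .inr g' => exact C.depth_lt g g' hc'
        change val k (f g) x ∈ _
        rw [hf g]
        have hxg := hx g
        cases hg : C.gate g with
        | add p q =>
          rw [hg] at hsub
          obtain ⟨a, ha⟩ := hsub p (by simp [Gate.args])
          obtain ⟨b, hb⟩ := hsub q (by simp [Gate.args])
          exact ⟨a + b, by rw [map_add, ha, hb]; exact (val_add k _ _ x).symm⟩
        | sub p q =>
          rw [hg] at hsub
          obtain ⟨a, ha⟩ := hsub p (by simp [Gate.args])
          obtain ⟨b, hb⟩ := hsub q (by simp [Gate.args])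
          exact ⟨a - b, by rw [map_sub, ha, hb]; exact (val_sub k _ _ x).symm⟩
        | smul z p =>
          rw [hg] at hsub hxg
          obtain ⟨a, ha⟩ := hsub p (by simp [Gate.args])
          change val k (z • C.cell f p) x ∈ _
          rw [val_smul]
          by_cases hz : z ∈ Set.range (algebraMap k ℂ)
          · obtain ⟨b, rfl⟩ := hz
            exact ⟨b * a, by rw [map_mul, ha]⟩
          · have h0 := hxg hz
            change φ (val k (C.cell f p) x) = 0 at h0
            rw [← ha, hφ] at h0
            rw [← ha, h0, map_zero, mul_zero]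
            exact ⟨0, map_zero _⟩
  intro c
  exact key _ c rfl

open Classical in
/-- **Scalar gates.**  Some subspace of `k^ι` of codimension at most the number of bad gates is
mapped to `k^κ`. -/
theorem exists_subspace (C : Circuit ι κ) {A : Matrix κ ι ℂ} (hC : C.Comp A) :
    ∃ U : Submodule k (ι → k),
      Fintype.card ι ≤ Module.finrank k U + (Finset.univ.filter fun g => IsBad k (C.gate g)).card ∧
      ∀ x ∈ U, ∀ j, ∑ i, x i • A j i ∈ Set.range (algebraMap k ℂ) := by
  obtain ⟨f, hf, hout⟩ := hC
  obtain ⟨φ, hφ⟩ := LinearMap.exists_leftInverse_of_injective (Algebra.linearMap k ℂ)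
    (LinearMap.ker_eq_bot.2 (algebraMap k ℂ).injective)
  have hφ' : ∀ a : k, φ (algebraMap k ℂ a) = a := fun a => by
    have := LinearMap.congr_fun hφ a
    simpa using this
  let B : Finset C.G := Finset.univ.filter fun g => IsBad k (C.gate g)
  let Ψ : (ι → k) →ₗ[k] (B → k) :=
    LinearMap.pi fun g => φ ∘ₗ Fintype.linearCombination k (C.cell f (argOf (C.gate g.1)))
  refine ⟨LinearMap.ker Ψ, ?_, ?_⟩
  · have h1 := LinearMap.finrank_range_add_finrank_ker Ψ
    have h2 : Module.finrank k (LinearMap.range Ψ) ≤ B.card := by
      refine (Submodule.finrank_le _).trans ?_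
      rw [Module.finrank_fintype_fun_eq_card, Fintype.card_coe]
    rw [Module.finrank_fintype_fun_eq_card] at h1
    change Fintype.card ι ≤ Module.finrank k (LinearMap.ker Ψ) + B.card
    omega
  · intro x hx j
    have h := val_mem k C hf φ hφ' x (fun g hg => by
      have := congrFun (LinearMap.mem_ker.1 hx) ⟨g, Finset.mem_filter.2 ⟨Finset.mem_univ _, hg⟩⟩
      simpa [Ψ, Fintype.linearCombination_apply, val] using this) (C.out j)
    have e : val k (C.cell f (C.out j)) x = ∑ i, x i • A j i := by
      unfold val
      exact Finset.sum_congr rfl fun i _ => by rw [hout j i]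
    rw [← e]
    exact h

end general

end Vale.Agent.P344.H227
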